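import Vale.Agent.Lib.P249.helper62.GridDefs

/-!
# P249 grid lower bound, job GRID-I3 (helper35): `grid_spread`

Second moment of the squared distance under the product of discrete Gaussian weights on the
grid, and the power mean inequality: the `q/2`-th moment of the squared distance of two
independent grid points is at least `gZ M ^ (2 k) * (2 k M^2 / (3 e^2)) ^ (q/2)`.
-/

namespace Vale.Agent.Lib.P249.H35

open Finset
open Vale.Agent.Lib.P249.H62

/-- split a sum over `Fin (k + 1) → ι` along the first coordinate -/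
theorem sum_cons {ι : Type*} [Fintype ι] (k : ℕ) (F : (Fin (k + 1) → ι) → ℝ) :
    ∑ x, F x = ∑ t : ι, ∑ x : Fin k → ι, F (Fin.cons t x) := by
  rw [← (Fin.consEquiv (fun _ : Fin (k + 1) => ι)).sum_comp F, Fintype.sum_prod_type]
  simp only [Fin.consEquiv, Equiv.coe_fn_mk]

theorem gPhi_cons (M k : ℕ) (t : Fin (2 * M + 1)) (x : Fin k → Fin (2 * M + 1)) :
    gPhi M (k + 1) (Fin.cons t x) = gphi M t * gPhi M k x := by
  unfold gPhi
  rw [Fin.prod_univ_succ]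
  simp only [Fin.cons_zero, Fin.cons_succ]

theorem gdist2_cons (M k : ℕ) (t t' : Fin (2 * M + 1)) (x y : Fin k → Fin (2 * M + 1)) :
    gdist2 M (k + 1) (Fin.cons t x) (Fin.cons t' y)
      = (gv M t - gv M t') ^ 2 + gdist2 M k x y := by
  unfold gdist2
  rw [Fin.sum_univ_succ]
  simp only [Fin.cons_zero, Fin.cons_succ]

theorem gphi_pos (M : ℕ) (t : Fin (2 * M + 1)) : 0 < gphi M t := Real.exp_pos _

theorem gPhi_nonneg (M k : ℕ) (x : Fin k → Fin (2 * M + 1)) : 0 ≤ gPhi M k x :=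
  Finset.prod_nonneg (fun _ _ => (gphi_pos M _).le)

theorem gdist2_nonneg (M k : ℕ) (x y : Fin k → Fin (2 * M + 1)) : 0 ≤ gdist2 M k x y :=
  Finset.sum_nonneg (fun _ _ => sq_nonneg _)

theorem gZ_pos (M : ℕ) : 0 < gZ M :=
  Finset.sum_pos (fun t _ => gphi_pos M t) Finset.univ_nonempty

theorem sum_gPhi (M : ℕ) : ∀ k : ℕ, ∑ x, gPhi M k x = gZ M ^ k := by
  intro k
  induction k with
  | zero => simp [gPhi]
  | succ k ih =>
    rw [sum_cons]
    simp only [gPhi_cons]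
    simp only [← Finset.mul_sum]
    rw [ih, ← Finset.sum_mul, pow_succ]
    unfold gZ
    ring

/-- total mass of the product of the two product weights -/
theorem sum_gPhi_gPhi (M k : ℕ) :
    ∑ x, ∑ y, gPhi M k x * gPhi M k y = gZ M ^ (2 * k) := by
  rw [← Finset.sum_mul_sum, sum_gPhi, ← pow_add]
  congr 1
  ring

/-- one-coordinate second moment -/
noncomputable def gV (M : ℕ) : ℝ :=
  ∑ t, ∑ t', gphi M t * gphi M t' * (gv M t - gv M t') ^ 2

theorem second_moment_succ (M k : ℕ) :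
    ∑ x, ∑ y, gPhi M (k + 1) x * gPhi M (k + 1) y * gdist2 M (k + 1) x y
      = gZ M ^ 2 * (∑ x, ∑ y, gPhi M k x * gPhi M k y * gdist2 M k x y)
        + gV M * gZ M ^ (2 * k) := by
  have h1 : ∑ x, ∑ y, gPhi M (k + 1) x * gPhi M (k + 1) y * gdist2 M (k + 1) x y
      = ∑ t, ∑ t', ∑ x, ∑ y, gphi M t * gPhi M k x * (gphi M t' * gPhi M k y)
          * ((gv M t - gv M t') ^ 2 + gdist2 M k x y) := by
    rw [sum_cons]
    refine Finset.sum_congr rfl (fun t _ => ?_)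
    have h2 : ∀ x : Fin k → Fin (2 * M + 1),
        ∑ y, gPhi M (k + 1) (Fin.cons t x) * gPhi M (k + 1) y
            * gdist2 M (k + 1) (Fin.cons t x) y
          = ∑ t', ∑ y, gphi M t * gPhi M k x * (gphi M t' * gPhi M k y)
              * ((gv M t - gv M t') ^ 2 + gdist2 M k x y) := by
      intro x
      rw [sum_cons]
      refine Finset.sum_congr rfl (fun t' _ => Finset.sum_congr rfl (fun y _ => ?_))
      rw [gPhi_cons, gPhi_cons, gdist2_cons]
    simp only [h2]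
    exact Finset.sum_comm
  rw [h1]
  have h3 : ∀ t t', ∑ x, ∑ y, gphi M t * gPhi M k x * (gphi M t' * gPhi M k y)
        * ((gv M t - gv M t') ^ 2 + gdist2 M k x y)
      = gphi M t * gphi M t' * (gv M t - gv M t') ^ 2 * gZ M ^ (2 * k)
        + gphi M t * gphi M t' * (∑ x, ∑ y, gPhi M k x * gPhi M k y * gdist2 M k x y) := by
    intro t t'
    rw [← sum_gPhi_gPhi M k, Finset.mul_sum, Finset.mul_sum, ← Finset.sum_add_distrib]
    refine Finset.sum_congr rfl (fun x _ => ?_)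
    rw [Finset.mul_sum, Finset.mul_sum, ← Finset.sum_add_distrib]
    refine Finset.sum_congr rfl (fun y _ => ?_)
    ring
  simp only [h3, Finset.sum_add_distrib, ← Finset.sum_mul]
  have h4 : ∑ t, ∑ t', gphi M t * gphi M t' = gZ M ^ 2 := by
    rw [← Finset.sum_mul_sum, sq]
    rfl
  rw [h4]
  unfold gV
  ring

theorem second_moment (M : ℕ) : ∀ k : ℕ,
    (∑ x, ∑ y, gPhi M k x * gPhi M k y * gdist2 M k x y) * gZ M ^ 2
      = k * gV M * gZ M ^ (2 * k) := by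
  intro k
  induction k with
  | zero => simp [gdist2]
  | succ k ih =>
    rw [second_moment_succ]
    have e : gZ M ^ (2 * (k + 1)) = gZ M ^ (2 * k) * gZ M ^ 2 := by
      ring
    rw [e]
    push_cast
    linear_combination (gZ M ^ 2) * ih

theorem sum_range_id (n : ℕ) : ∑ i ∈ Finset.range n, (i : ℝ) = (n : ℝ) * ((n : ℝ) - 1) / 2 := by
  induction n with
  | zero => simp
  | succ n ih =>
    rw [Finset.sum_range_succ, ih]
    push_cast
    ring

theorem sum_range_sq (n : ℕ) :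
    ∑ i ∈ Finset.range n, (i : ℝ) ^ 2 = ((n : ℝ) - 1) * (n : ℝ) * (2 * (n : ℝ) - 1) / 6 := by
  induction n with
  | zero => simp
  | succ n ih =>
    rw [Finset.sum_range_succ, ih]
    push_cast
    ring

theorem sum_gv (M : ℕ) : ∑ t, gv M t = 0 := by
  unfold gv
  rw [Fin.sum_univ_eq_sum_range (fun i => (i : ℝ) - M) (2 * M + 1), Finset.sum_sub_distrib,
    sum_range_id, Finset.sum_const, Finset.card_range, nsmul_eq_mul]
  push_cast
  ring

theorem sum_gv_sq (M : ℕ) :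
    ∑ t, gv M t ^ 2 = (M : ℝ) * ((M : ℝ) + 1) * (2 * (M : ℝ) + 1) / 3 := by
  unfold gv
  rw [Fin.sum_univ_eq_sum_range (fun i => ((i : ℝ) - M) ^ 2) (2 * M + 1)]
  have h : ∀ i ∈ Finset.range (2 * M + 1),
      ((i : ℝ) - M) ^ 2 = (i : ℝ) ^ 2 - 2 * (M : ℝ) * (i : ℝ) + (M : ℝ) ^ 2 := by
    intro i _
    ring
  rw [Finset.sum_congr rfl h, Finset.sum_add_distrib, Finset.sum_sub_distrib, ← Finset.mul_sum,
    sum_range_id, sum_range_sq, Finset.sum_const, Finset.card_range, nsmul_eq_mul]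
  push_cast
  ring

theorem sum_gv_sub_sq (M : ℕ) :
    ∑ t, ∑ t', (gv M t - gv M t') ^ 2
      = 2 / 3 * (M : ℝ) * ((M : ℝ) + 1) * (2 * (M : ℝ) + 1) ^ 2 := by
  have h : ∀ t t', (gv M t - gv M t') ^ 2
      = gv M t ^ 2 + gv M t' ^ 2 - 2 * (gv M t * gv M t') := by
    intro t t'
    ring
  simp only [h, Finset.sum_sub_distrib, Finset.sum_add_distrib, Finset.sum_const,
    Finset.card_univ, Fintype.card_fin, nsmul_eq_mul, ← Finset.mul_sum, ← Finset.sum_mul,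
    sum_gv, sum_gv_sq]
  push_cast
  ring

theorem gv_sq_le (M : ℕ) (t : Fin (2 * M + 1)) : gv M t ^ 2 ≤ (M : ℝ) ^ 2 := by
  unfold gv
  have h1 : (0 : ℝ) ≤ (t : ℝ) := Nat.cast_nonneg _
  have h2 : ((t : ℕ) : ℝ) ≤ 2 * (M : ℝ) := by
    have : (t : ℕ) ≤ 2 * M := Nat.lt_succ_iff.mp t.isLt
    exact_mod_cast this
  nlinarith

theorem gphi_ge (M : ℕ) (hM : 1 ≤ M) (t : Fin (2 * M + 1)) : Real.exp (-1) ≤ gphi M t := by
  unfold gphi
  apply Real.exp_le_exp.mpr
  have hM0 : (0 : ℝ) < (M : ℝ) ^ 2 := by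
    have : (0 : ℝ) < (M : ℝ) := by exact_mod_cast hM
    positivity
  rw [neg_div, neg_le_neg_iff, div_le_one hM0]
  exact gv_sq_le M t

theorem gphi_le_one (M : ℕ) (t : Fin (2 * M + 1)) : gphi M t ≤ 1 := by
  unfold gphi
  rw [← Real.exp_zero]
  apply Real.exp_le_exp.mpr
  have : 0 ≤ gv M t ^ 2 / (M : ℝ) ^ 2 := by positivity
  rw [neg_div]
  linarith

theorem gZ_le (M : ℕ) : gZ M ≤ 2 * (M : ℝ) + 1 := by
  unfold gZ
  calc ∑ t, gphi M t ≤ ∑ _t : Fin (2 * M + 1), (1 : ℝ) :=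
        Finset.sum_le_sum (fun t _ => gphi_le_one M t)
    _ = 2 * (M : ℝ) + 1 := by
        rw [Finset.sum_const, Finset.card_univ, Fintype.card_fin, nsmul_eq_mul]
        push_cast
        ring

/-- the one-coordinate second moment is at least `2 M^2 / (3 e^2)` times `gZ M ^ 2` -/
theorem gV_ge (M : ℕ) (hM : 1 ≤ M) :
    2 * (M : ℝ) ^ 2 / (3 * Real.exp 2) * gZ M ^ 2 ≤ gV M := by
  have hM1 : (1 : ℝ) ≤ (M : ℝ) := by exact_mod_cast hM
  have he : Real.exp (-2) = Real.exp (-1) * Real.exp (-1) := by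
    rw [← Real.exp_add]
    norm_num
  have h1 : Real.exp (-2) * (∑ t, ∑ t', (gv M t - gv M t') ^ 2) ≤ gV M := by
    unfold gV
    rw [Finset.mul_sum]
    refine Finset.sum_le_sum (fun t _ => ?_)
    rw [Finset.mul_sum]
    refine Finset.sum_le_sum (fun t' _ => ?_)
    apply mul_le_mul_of_nonneg_right _ (sq_nonneg _)
    rw [he]
    exact mul_le_mul (gphi_ge M hM t) (gphi_ge M hM t') (Real.exp_pos _).le (gphi_pos M t).le
  rw [sum_gv_sub_sq] at h1
  have h2 : Real.exp (-2) = (Real.exp 2)⁻¹ := Real.exp_neg 2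
  have hZ0 : 0 < gZ M := gZ_pos M
  have hZ1 : gZ M ≤ 2 * (M : ℝ) + 1 := gZ_le M
  have hZ2 : gZ M ^ 2 ≤ (2 * (M : ℝ) + 1) ^ 2 := by nlinarith
  have hE : 0 < Real.exp 2 := Real.exp_pos 2
  refine le_trans ?_ h1
  rw [h2, div_mul_eq_mul_div, div_le_iff₀ (by positivity)]
  have h3 : (Real.exp 2)⁻¹ * (2 / 3 * (M : ℝ) * ((M : ℝ) + 1) * (2 * (M : ℝ) + 1) ^ 2)
      * (3 * Real.exp 2) = 2 * (M : ℝ) * ((M : ℝ) + 1) * (2 * (M : ℝ) + 1) ^ 2 := by
    field_simp
  rw [h3]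
  have h4 : (M : ℝ) ^ 2 * gZ M ^ 2 ≤ (M : ℝ) * ((M : ℝ) + 1) * (2 * (M : ℝ) + 1) ^ 2 := by
    have h5 : (M : ℝ) ^ 2 * gZ M ^ 2 ≤ (M : ℝ) ^ 2 * (2 * (M : ℝ) + 1) ^ 2 :=
      mul_le_mul_of_nonneg_left hZ2 (sq_nonneg _)
    have h6 : (0 : ℝ) ≤ (M : ℝ) * (2 * (M : ℝ) + 1) ^ 2 := by positivity
    nlinarith
  nlinarith

theorem grid_spread (M : ℕ) (hM : 1 ≤ M) (k : ℕ) (hk : 1 ≤ k) (q : ℝ) (hq : 2 ≤ q) :
    gZ M ^ (2 * k) * (2 * k * (M : ℝ) ^ 2 / (3 * Real.exp 2)) ^ (q / 2)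
      ≤ ∑ x, ∑ y, gPhi M k x * gPhi M k y * (gdist2 M k x y) ^ (q / 2) := by
  have _hk : 1 ≤ k := hk
  have hZ0 : 0 < gZ M := gZ_pos M
  set W : ℝ := gZ M ^ (2 * k) with hWdef
  have hW0 : 0 < W := pow_pos hZ0 _
  set S : ℝ := ∑ x, ∑ y, gPhi M k x * gPhi M k y * gdist2 M k x y with hSdef
  set c : ℝ := 2 * (M : ℝ) ^ 2 / (3 * Real.exp 2) with hcdef
  have hc0 : 0 ≤ c := by positivity
  -- second moment
  have hS : (k : ℝ) * c * W ≤ S := by
    have h1 := second_moment M k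
    have h2 := gV_ge M hM
    have h3 : (k : ℝ) * c * W * gZ M ^ 2 ≤ S * gZ M ^ 2 := by
      rw [h1]
      have hk0 : (0 : ℝ) ≤ (k : ℝ) := Nat.cast_nonneg _
      have : (k : ℝ) * (c * gZ M ^ 2) * W ≤ (k : ℝ) * gV M * W :=
        mul_le_mul_of_nonneg_right (mul_le_mul_of_nonneg_left h2 hk0) hW0.le
      linarith
    exact le_of_mul_le_mul_right h3 (pow_pos hZ0 2)
  -- power mean on the product type
  have hp : (1 : ℝ) ≤ q / 2 := by linarith
  have hpm := Real.rpow_arith_mean_le_arith_mean_rpow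
    (Finset.univ : Finset ((Fin k → Fin (2 * M + 1)) × (Fin k → Fin (2 * M + 1))))
    (fun p => gPhi M k p.1 * gPhi M k p.2 / W) (fun p => gdist2 M k p.1 p.2)
    (fun p _ => div_nonneg (mul_nonneg (gPhi_nonneg M k p.1) (gPhi_nonneg M k p.2)) hW0.le)
    (by
      rw [Fintype.sum_prod_type]
      simp only [div_eq_mul_inv]
      simp only [← Finset.sum_mul]
      rw [sum_gPhi_gPhi, mul_inv_cancel₀ hW0.ne'])
    (fun p _ => gdist2_nonneg M k p.1 p.2) hp
  rw [Fintype.sum_prod_type, Fintype.sum_prod_type] at hpm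
  have e1 : ∑ x, ∑ y, gPhi M k x * gPhi M k y / W * gdist2 M k x y = S / W := by
    rw [hSdef, Finset.sum_div]
    refine Finset.sum_congr rfl (fun x _ => ?_)
    rw [Finset.sum_div]
    refine Finset.sum_congr rfl (fun y _ => ?_)
    ring
  have e2 : ∑ x, ∑ y, gPhi M k x * gPhi M k y / W * gdist2 M k x y ^ (q / 2)
      = (∑ x, ∑ y, gPhi M k x * gPhi M k y * gdist2 M k x y ^ (q / 2)) / W := by
    rw [Finset.sum_div]
    refine Finset.sum_congr rfl (fun x _ => ?_)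
    rw [Finset.sum_div]
    refine Finset.sum_congr rfl (fun y _ => ?_)
    ring
  rw [e1, e2] at hpm
  have h5 : (k : ℝ) * c ≤ S / W := by
    rw [le_div_iff₀ hW0]
    exact hS
  have h6 : ((k : ℝ) * c) ^ (q / 2) ≤ (S / W) ^ (q / 2) :=
    Real.rpow_le_rpow (mul_nonneg (Nat.cast_nonneg _) hc0) h5 (by linarith)
  have h7 : ((k : ℝ) * c) ^ (q / 2)
      ≤ (∑ x, ∑ y, gPhi M k x * gPhi M k y * gdist2 M k x y ^ (q / 2)) / W := le_trans h6 hpm
  rw [le_div_iff₀ hW0] at h7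
  have e3 : 2 * (k : ℝ) * (M : ℝ) ^ 2 / (3 * Real.exp 2) = (k : ℝ) * c := by
    rw [hcdef]
    ring
  rw [e3]
  linarith

end Vale.Agent.Lib.P249.H35
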